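import Crest.Agent.X262.Dg72.Main_Mg
import Crest.Agent.X262.Prod33.Main_Mg
import Crest.Agent.X262.Am12.Main
import Crest.Agent.X262.Vb37.Nrm
import Crest.Agent.X262.Tree87.Rank
import Crest.Agent.X262.Vb.Ax0
import Crest.Agent.X262.Cht28.Main_Mg
import Crest.Agent.X262.Gen42.Main_Mg
import Crest.Agent.X262.Drop30.Main_Mg
import Crest.Agent.X262.Emb11.Def2
import Crest.Agent.X262.Cnt37.Core
import Crest.Agent.X262.Emb71.Fn
import Crest.Agent.X262.Emb10.Rel_Mg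
import Crest.Agent.X262.Emb40.Val_Mg
import Crest.Agent.X262.Emb96.Main_Mg

-- ▼ part X262/Dg87/Fin
section

/-! # Row 262, road B (helper87): the degree zero axiom -/

namespace Crest.Agent.X262.Dg87

theorem deg0Stmt : Vb.Deg0Stmt := Dg72.deg0Stmt_of oneStmt

end Crest.Agent.X262.Dg87
end

-- ▼ part X262/Wv65/Fin
section

/-!
# Row 262, road B, WDVV (helper65), part 2: the proved leaves are discharged
-/

set_option autoImplicit false

namespace Crest.Agent.X262.Wv65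

open Crest.Agent.X262.Vb

section Ad

variable {J : Type} [Fintype J] [DecidableEq J] {io : J → Type} [∀ j, Fintype (io j)]
  [∀ j, DecidableEq (io j)]

theorem dropU_of (h : Drop30.DropStmt io) : DropU io :=
  fun d N M I K L _ _ _ _ _ _ _ x₀ o a b e A R B hs _ θ ξ g h1 h2 W _ =>
    h d N M I K L x₀ o a b e A R B hs θ ξ g h1 h2 W


end Ad

/-- SPLIT from NODE -/
theorem split_of2 (hN : Wd54.NodeStmt) : Wd54.SplitStmt :=
  Wd54.split_of ax0Stmt Vb37.exNrm hN (Prod33.prodStmt_of Sym65.twoStmt) Ord20.ordStmt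
    Pbd43.pbdStmt Cl49.class2Stmt Cht28.chartStmt Cnt37.notOnStmt
    fun a₁ a₂ h θ₁ θ₂ h₁ h₂ =>
      have := Wd.essFT_of_hom a₁
      have := Wd.essFT_of_hom a₂
      Am12.exists_amal2 h θ₁ θ₂ h₁ h₂

/-- WDVV from NODE, DROP, GEN, ORD -/
theorem wdvv_of2 (hN : Wd54.NodeStmt)
    (hD : ∀ {J : Type} [Fintype J] [DecidableEq J] (io : J → Type) [∀ j, Fintype (io j)]
      [∀ j, DecidableEq (io j)], DropU io)
    (hG : ∀ {J : Type} [Fintype J] [DecidableEq J] (io : J → Type) [∀ j, Fintype (io j)]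
      [∀ j, DecidableEq (io j)], GenU io)
    (hO : ∀ {J : Type} [Fintype J] [DecidableEq J] (io : J → Type) [∀ j, Fintype (io j)]
      [∀ j, DecidableEq (io j)], Drop30.OrdStmt io) : WdvvStmt :=
  wdvv_of (split_of2 hN) hD hG hO Vb37.exNrm Tree87.rankStmt

end Crest.Agent.X262.Wv65
end

-- ▼ part X262/Wv65/Fin2
section

/-!
# Row 262, road B, WDVV (helper65), part 3: SPLIT and GEN are discharged
-/

set_option autoImplicit false

namespace Crest.Agent.X262.Wv65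

open Crest.Agent.X262.Vb


/-- **GEN** -/
theorem genU {J : Type} [Fintype J] [DecidableEq J] (io : J → Type) [∀ j, Fintype (io j)]
    [∀ j, DecidableEq (io j)] : GenU io :=
  fun d m n N M I K L k k' I₁ I₂ _ _ _ _ _ _ _ _ _ _ _ _ _ x₀ o a b e A R B S hs ht hu ι η₁ η₂ hc θ
      ξ g h1 h2 γ ξ₁ ξ₂ g₁ g₂ a1 a2 a3 a4 a5 W hW _ =>
    Gen42.genStmt2 d m n N M I K L k k' I₁ I₂ x₀ o a b e A R B S hs ht (Vb37.univ_inj hu) ι η₁ η₂
      hc θ ξ g h1 h2 γ ξ₁ ξ₂ g₁ g₂ a1 a2 a3 a4 a5 W hW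

/-- WDVV from DROP and ORD -/
theorem wdvv_of3
    (hD : ∀ {J : Type} [Fintype J] [DecidableEq J] (io : J → Type) [∀ j, Fintype (io j)]
      [∀ j, DecidableEq (io j)], DropU io)
    (hO : ∀ {J : Type} [Fintype J] [DecidableEq J] (io : J → Type) [∀ j, Fintype (io j)]
      [∀ j, DecidableEq (io j)], Drop30.OrdStmt io) : WdvvStmt :=
  wdvv_of2 (Node22.nodeStmt_of Sym65.twoStmt) hD genU hO

end Crest.Agent.X262.Wv65
end

-- ▼ part X262/Wv65/End
section

/-!
# Row 262, road B, WDVV (helper65), part 4: the associativity equation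
-/

set_option autoImplicit false

namespace Crest.Agent.X262.Wv65

/-- **DROP** -/
theorem dropU {J : Type} [Fintype J] [DecidableEq J] (io : J → Type) [∀ j, Fintype (io j)]
    [∀ j, DecidableEq (io j)] : DropU io := dropU_of Drop30.dropStmt

/-- **WDVV** -/
theorem wdvvStmt : Vb.WdvvStmt := wdvv_of3 dropU fun _ _ _ => Ord23.ordStmt

end Crest.Agent.X262.Wv65
end

-- ▼ part X262/EmbA/Fin
section

/-!
# Row 262, road B, EMB (helper1): `EmbStmt` from the field-level statement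
-/

set_option autoImplicit false
set_option linter.unusedSectionVars false

noncomputable section

namespace Crest.Agent.X262.EmbA

open Crest.Agent.X277 Crest.Agent.X277.BD Crest.Agent.X277.Pst Crest.Agent.X277.BD.Cyc
open Crest.Agent.X262.Hb Crest.Agent.X262.Vb Crest.Agent.X262.Emb
open Crest.Agent.X262.Sym65 (sm Fs)

theorem sm_fin {K : Type} [Field K] [Algebra ℂ K] {a : BD ℂ K} {ι : Type*} (s : Finset ι)
    {f : ι → RZ ℂ K → ℂ} (h : ∀ i, Fs a (f i)) :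
    Fs a (fun V => ∑ i ∈ s, f i V) ∧ (sm a fun V => ∑ i ∈ s, f i V) = ∑ i ∈ s, sm a (f i) := by
  induction s using Finset.cons_induction with
  | empty => exact ⟨Set.finite_empty.subset fun V hV => hV.2 (by simp), by simp [sm]⟩
  | cons i s hi ih =>
    simp only [Finset.sum_cons]
    exact ⟨(h i).add ih.1, by rw [Sym65.sm_add (h i) ih.1, ih.2]⟩

theorem mcls_prF {J : Type} [Fintype J] [DecidableEq J] {io : Option J → Type}
    [∀ j, Fintype (io j)] [∀ j, DecidableEq (io j)] {A A' : Type} [Fintype A] [Fintype A']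
    {T : Tgt (bs io) A} {T' : Tgt io A'} {d : J → ℕ} (G : Gr T T' d) {B : Th} {M : Type}
    {Φ : MFam B (bs io) M} (h : MCls B T Φ) : MCls B T' (prF Φ) :=
  ⟨fun E _ _ _ y c h1 h2 h3 => h.scl E (fun q => prP (y q)) (fun q j => c q (some j))
      (fun _ _ => h1 _ _) (fun _ _ => h2 _ _) fun q => Emb71.on_prP G (h3 q),
    fun K E _ _ _ _ _ _ p y h1 h2 => h.nat K E p (fun q => prP (y q)) (fun _ _ => h1 _ _)
      fun q => Emb71.on_prP G (h2 q)⟩

/-- **EMB** from the field-level statement -/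
theorem embStmt_of_core (hC : CoreStmt) (hL : LftStmt) (hU : UnivStmt) : EmbStmt := by
  intro B hB J _ _ io _ _ A A' _ _ T T' c d hn hG hG' G
  obtain ⟨nw, ⟨N₀, n₀, h0⟩, h1⟩ := hC B hB G c (hn none) hG
  choose N₁ h1 using fun n => h1 n (hG' n)
  choose N₂ h2 using fun n => (hG' n).vir_eq hB
  obtain ⟨N₃, h3⟩ := hG.vir_eq hB
  refine ⟨n₀, fun {M} _ Φ hΦ => ?_⟩
  by_cases hM : 3 ≤ Fintype.card M
  swap
  · have h4 : ∀ n, GW B T' (exd d n) (prF Φ) = 0 := fun n =>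
      GW_of_not (fun ⟨_, _, _, _, h⟩ => hM (Vb37.univ_card h)) _
    refine ⟨fun n _ => h4 n, ?_⟩
    rw [GW_of_not fun ⟨_, _, _, _, h⟩ => hM (Vb37.univ_card h), Finset.sum_eq_zero fun n _ => h4 n]
  obtain ⟨K₀, _, _, _, ξ₀, hu⟩ := Vb37.exists_univ (io := bs io) (d := d) (fun j => hn _) hM
  have main : ∀ (n N : ℕ), N₁ n ≤ N → N₂ n ≤ N → ∀ {K I : Type} [Field K] [Algebra ℂ K]
      [Algebra.EssFiniteType ℂ K] [Fintype I] (θ : K₀ →ₐ[ℂ] K) (m : M → I)
      (ξ : Dat (bs io) d I K), 0 < deg θ → ξ.res m = ξ₀.map θ → ξ.NrmUp N → Lft T T' N ξ →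
      (sm (ξ.cfg.dv T) fun W => if nw I (Rf W) (ξ.cfg.red (plV W)) = n then
        B.itg (Rf W) (trm B T ξ.cfg m Φ W) else 0) = deg θ * GW B T' (exd d n) (prF Φ) := by
    intro n N a1 a2 K I _ _ _ _ θ m ξ hθ hm hN hl
    obtain ⟨L₀, _, _, _, L, _, _, _, θ', α, I', _, g, η, b1, b2, b3, b4, b5, b6, b7⟩ :=
      hU n N (hn none) ξ₀ θ ξ m hu hθ hm
    have hO : ¬ ξ.cfg.On T := fun h => by
      have h4 : (ξ.res m).cfg.On T := fun q => h (m q)
      rw [hm, Vb37.cfg_map, Cfg.on_map] at h4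
      obtain ⟨a, ha⟩ := hG.1
      obtain ⟨q⟩ := Fintype.card_pos_iff.1 (show 0 < Fintype.card M by omega)
      exact ha (Cnt37.univ_pv hu q (T.hom a) (h4 q a))
    have e1 := h1 n N a1 ξ α η g m Φ hΦ hN hl hO b1 b2 b5 b6
    have e2 : ((deg θ' : ℤ) : ℂ) = _ := congrArg _ b7
    rw [h2 n _ (mcls_prF G hΦ) b3 (Vb10.nrmUp_mono b2 a2)] at e1
    rw [Int.cast_natCast, Int.cast_mul, Int.cast_natCast] at e2
    refine mul_left_cancel₀ (fun h => ?_) (e1.symm.trans (by rw [e2]; ring))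
    rw [h, mul_zero, Nat.cast_eq_zero] at e2
    omega
  refine ⟨fun n hn => ?_, ?_⟩
  · obtain ⟨K, _, _, _, θ, I, _, m, ξ, b1, b2, b3, b4⟩ := hL G (max N₀ (max (N₁ n) (N₂ n))) ξ₀
    have e1 := main n _ (by omega) (by omega) θ m ξ b1 b2 b3 b4
    rw [Vb.sm_eq_zero fun W _ h => if_neg
      ((h0 _ (by omega) ξ b4 W (on_at ξ.cfg_nz h)).trans_lt hn).ne] at e1
    exact (mul_eq_zero.1 e1.symm).resolve_left (Nat.cast_ne_zero.2 b1.ne')
  · obtain ⟨N, c1, c2⟩ : ∃ N, max N₀ N₃ ≤ N ∧ ∀ n ∈ Finset.range (n₀ + 1), max (N₁ n) (N₂ n) ≤ N :=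
      ⟨max (max N₀ N₃) ((Finset.range (n₀ + 1)).sup fun n => max (N₁ n) (N₂ n)), le_max_left _ _,
        fun n hn => (Finset.le_sup (f := fun n => max (N₁ n) (N₂ n)) hn).trans (le_max_right _ _)⟩
    obtain ⟨K, _, _, _, θ, I, _, m, ξ, b1, b2, b3, b4⟩ := hL G N ξ₀
    refine mul_left_cancel₀ (Nat.cast_ne_zero.2 b1.ne' : (deg θ : ℂ) ≠ 0) ?_
    have ho : Over ξ m θ := ⟨ξ₀, hu, by rw [b2]; exact Vb37.eqv_refl _⟩
    rw [← h3 Φ hΦ ho (Vb10.nrmUp_mono b3 (by omega)), Finset.mul_sum,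
      ← Finset.sum_congr rfl fun n hn => main n N ((le_max_left _ _).trans (c2 n hn))
        ((le_max_right _ _).trans (c2 n hn)) θ m ξ b1 b2 b3 b4,
      ← (sm_fin _ fun n => (fs_vir hB hΦ ξ.cfg_nz m).of_imp fun W _ h h' => h (by
        split_ifs; exacts [h', mul_zero _])).2]
    refine Vb.sm_congr fun W _ h => ?_
    rw [Finset.sum_ite_eq, if_pos (Finset.mem_range.2
      (Nat.lt_succ_of_le (h0 N (by omega) ξ b4 W (on_at ξ.cfg_nz h))))]

end Crest.Agent.X262.EmbA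
end
end

-- ▼ part X262/Emb11/Main

/-!
# Row 262, road B, EMB (helper11), part 5: `EmbStmt` from `TwoStmt` and `LftStmt`
-/

set_option autoImplicit false

namespace Crest.Agent.X262.Emb

theorem valH (B : Hb.Th) (hB : B.Ax) : ValH B where
  rel α _ hd hm _ _ hV hW τ c hc h := Emb40.val_rel hB α hd hm hV hW τ c hc h
  far α _ hd hm _ _ hV hW τ h := Emb40.val_far hB α hd hm hV hW τ h
  sm := Emb40.sm_rel
  lin α := Emb40.ring_d α

theorem coreStmt (h : Sym65.TwoStmt) : CoreStmt :=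
  coreStmt_of valH h Emb71.descStmt (Emb10.relStmt_of Emb87.propStmt Emb87.bndStmt)

theorem embStmt_of (h : Sym65.TwoStmt) (hL : LftStmt) : EmbStmt :=
  EmbA.embStmt_of_core (coreStmt h) hL Emb43.univStmt

end Crest.Agent.X262.Emb
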